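import Vale.Agent.Lib.PNT.Tauber

/-! The prime number theorem in Chebyshev form. -/

namespace Vale.Agent.PNT

open Filter Topology

section
open MeasureTheory Complex Set ArithmeticFunction

lemma exists_aux : ∃ G : ℂ → ℂ, ContinuousOn G {s | 1 ≤ s.re} ∧
    ∀ s : ℂ, 1 < s.re → G s = LSeries (fun n => (vonMangoldt n : ℂ)) s - 1 / (s - 1) := by
  refine ⟨_, vonMangoldt.continuousOn_LFunctionResidueClassAux (1 : ZMod 1), fun s hs => ?_⟩
  rw [vonMangoldt.eqOn_LFunctionResidueClassAux isUnit_one hs]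
  have : vonMangoldt.residueClass (1 : ZMod 1) = fun n => vonMangoldt n := by
    ext n
    have h : n ∈ {n : ℕ | (n : ZMod 1) = 1} := Subsingleton.elim (n : ZMod 1) 1
    exact Set.indicator_of_mem h _
  simp [this]

lemma psi_laplace {z : ℂ} (hz : 0 < z.re) :
    (1 + z) * ∫ t in Ioi (0 : ℝ), ((Chebyshev.psi (Real.exp t) * Real.exp (-t) : ℝ) : ℂ) *
      cexp (-z * t) = LSeries (fun n => (vonMangoldt n : ℂ)) (1 + z) := by
  have e : ∀ x : ℝ, ∑ k ∈ Finset.Icc 1 ⌊x⌋₊, vonMangoldt k = Chebyshev.psi x := fun x => rfl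
  rw [LSeries_eq_mul_integral_of_nonneg (fun n => vonMangoldt n) (r := 1) zero_le_one
    (by simpa) ?_ fun _ => vonMangoldt_nonneg]
  · congr 1
    rw [← Real.exp_zero, ← integral_comp_exp_Ioi]
    refine setIntegral_congr_fun measurableSet_Ioi fun t _ => ?_
    rw [← Complex.ofReal_sum, e, Complex.cpow_def_of_ne_zero (by simp),
      ← Complex.ofReal_log (Real.exp_pos t).le, Real.log_exp, Complex.real_smul]
    push_cast
    rw [mul_assoc, mul_left_comm (cexp t), ← Complex.exp_add, ← Complex.exp_add]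
    congr 2
    ring
  · refine Asymptotics.IsBigO.of_bound (Real.log 4 + 4) (Eventually.of_forall fun n => ?_)
    have h := e n
    rw [Nat.floor_natCast] at h
    rw [h, Real.rpow_one, Real.norm_of_nonneg (Chebyshev.psi_nonneg _),
      Real.norm_of_nonneg n.cast_nonneg]
    exact Chebyshev.psi_le_const_mul_self n.cast_nonneg

lemma psi_avg {δ : ℝ} (hδ : 0 < δ) : Tendsto (fun y => ∫ s in (0 : ℝ)..δ,
    (Chebyshev.psi (Real.exp (y + s)) * Real.exp (-(y + s)) - 1)) atTop (𝓝 0) := by
  obtain ⟨G, hG, hG'⟩ := exists_aux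
  obtain ⟨f, hf⟩ : ∃ f : ℝ → ℝ, ∀ t, f t = Chebyshev.psi (Real.exp t) * Real.exp (-t) :=
    ⟨_, fun _ => rfl⟩
  have mf : Measurable f := by
    rw [funext hf]
    exact (Chebyshev.psi_mono.measurable.comp Real.measurable_exp).mul (by fun_prop)
  have bf : ∀ t, ‖(f t : ℂ)‖ ≤ Real.log 4 + 4 := fun t => by
    rw [Complex.norm_real, hf, Real.norm_of_nonneg (mul_nonneg (Chebyshev.psi_nonneg _)
      (Real.exp_pos _).le), Real.exp_neg, ← div_eq_mul_inv, div_le_iff₀ (Real.exp_pos _)]
    exact Chebyshev.psi_le_const_mul_self (Real.exp_pos _).le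
  have mf' : Measurable fun t => (f t : ℂ) := Complex.measurable_ofReal.comp mf
  have hne : ∀ z : ℂ, 0 ≤ z.re → 1 + z ≠ 0 := fun z hz h => by
    have := congrArg re h
    simp only [add_re, one_re, zero_re] at this
    linarith
  have T := tauber (g := (Ioi 0).indicator fun t => (f t : ℂ) - 1) (M := Real.log 4 + 4 + 1)
    (H := fun z => (G (1 + z) - 1) / (1 + z)) ((mf'.sub measurable_const).indicator measurableSet_Ioi)
    (fun t => (norm_indicator_le_norm_self _ _).trans ((norm_sub_le _ _).trans (by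
      rw [norm_one]; linarith [bf t])))
    (fun t ht => indicator_of_notMem (by simpa using ht) _)
    (((hG.comp (Continuous.continuousOn (by fun_prop)) fun z hz => by simpa using hz).sub
      continuousOn_const).div (Continuous.continuousOn (by fun_prop)) hne) (fun z hz => ?_) hδ
  · rw [tendsto_zero_iff_norm_tendsto_zero] at T ⊢
    refine T.congr' ?_
    filter_upwards [eventually_gt_atTop 0] with y hy
    rw [← Complex.norm_real, ← intervalIntegral.integral_ofReal]
    congr 1
    refine intervalIntegral.integral_congr fun s hs => ?_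
    rw [uIcc_of_le hδ.le] at hs
    rw [indicator_of_mem (show y + s ∈ Ioi 0 from add_pos_of_pos_of_nonneg hy hs.1), hf]
    push_cast
    rfl
  · have i1 := integrableOn_exp_mul_complex_Ioi (a := -z) (by simpa) 0
    have i2 : IntegrableOn (fun t : ℝ => (f t : ℂ) * cexp (-z * t)) (Ioi 0) :=
      i1.bdd_mul mf'.aestronglyMeasurable (Eventually.of_forall bf)
    have h1 := psi_laplace hz
    simp only [← hf] at h1
    have hz0 : z ≠ 0 := fun h => by simp [h] at hz
    have h2 := hne z hz.le
    have h3 : ∀ t : ℝ, (Ioi 0).indicator (fun t => (f t : ℂ) - 1) t * cexp (-z * t) =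
        (Ioi 0).indicator (fun t : ℝ => (f t : ℂ) * cexp (-z * t) - cexp (-z * t)) t := fun t => by
      simp only [indicator_apply]
      split_ifs
      · ring
      · ring
    simp only [h3, integral_indicator measurableSet_Ioi]
    rw [integral_sub i2 i1, integral_exp_mul_complex_Ioi (by simpa), hG' _ (by simpa), ← h1]
    simp only [ofReal_zero, mul_zero, exp_zero, add_sub_cancel_left]
    field_simp
    ring

end

lemma psi_exp_tendsto :
    Tendsto (fun y => Chebyshev.psi (Real.exp y) * Real.exp (-y)) atTop (𝓝 1) := by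
  obtain ⟨f, hf⟩ : ∃ f : ℝ → ℝ, ∀ t, f t = Chebyshev.psi (Real.exp t) * Real.exp (-t) :=
    ⟨_, fun _ => rfl⟩
  simp only [← hf]
  have avg : ∀ {δ : ℝ}, 0 < δ →
      Tendsto (fun y => ∫ s in (0 : ℝ)..δ, (f (y + s) - 1)) atTop (𝓝 0) := fun hδ => by
    simpa only [hf] using psi_avg hδ
  have f0 : ∀ t, 0 ≤ f t := fun t => hf t ▸ mul_nonneg (Chebyshev.psi_nonneg _) (Real.exp_pos _).le
  have mono : ∀ {a b δ : ℝ}, a ≤ b → b ≤ a + δ → f a ≤ Real.exp δ * f b := fun {a b δ} h1 h2 => by
    rw [hf, hf, mul_left_comm, ← Real.exp_add]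
    exact mul_le_mul (Chebyshev.psi_mono (Real.exp_le_exp.2 h1)) (Real.exp_le_exp.2 (by linarith))
      (Real.exp_pos _).le (Chebyshev.psi_nonneg _)
  have ii : ∀ y δ : ℝ, IntervalIntegrable (fun s => f (y + s) - 1) MeasureTheory.volume 0 δ :=
    fun y δ => by
      simp only [hf]
      refine IntervalIntegrable.sub (IntervalIntegrable.mul_continuousOn ?_ (by fun_prop))
        intervalIntegrable_const
      exact Monotone.intervalIntegrable (u := fun s => Chebyshev.psi (Real.exp (y + s)))
        fun a b h => Chebyshev.psi_mono (Real.exp_le_exp.2 (by linarith))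
  rw [tendsto_order]
  refine ⟨fun r hr => ?_, fun r hr => ?_⟩
  · have h1 : ∀ᶠ δ in 𝓝[>] (0 : ℝ), r < Real.exp (-δ) := by
      refine Tendsto.eventually_const_lt hr (tendsto_nhdsWithin_of_tendsto_nhds ?_)
      exact Continuous.tendsto' (by fun_prop) _ _ (by simp)
    obtain ⟨δ, h2, hδ⟩ := (h1.and self_mem_nhdsWithin).exists
    replace hδ : 0 < δ := hδ
    have t1 := (avg hδ).comp (tendsto_atTop_add_const_right atTop (-δ) tendsto_id)
    have t2 := ((t1.div_const δ).const_add 1).const_mul (Real.exp (-δ))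
    rw [zero_div, add_zero, mul_one] at t2
    filter_upwards [t2.eventually_const_lt h2] with y hy
    refine hy.trans_le ?_
    have a1 : ∫ s in (0 : ℝ)..δ, (f (y + -δ + s) - 1) ≤
        ∫ _ in (0 : ℝ)..δ, (Real.exp δ * f y - 1) :=
      intervalIntegral.integral_mono_on hδ.le (ii _ _) intervalIntegrable_const fun s hs =>
        sub_le_sub_right (mono (by linarith [hs.2]) (by linarith [hs.1])) 1
    rw [intervalIntegral.integral_const, sub_zero, smul_eq_mul, mul_comm, ← div_le_iff₀ hδ] at a1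
    rw [Real.exp_neg, inv_mul_le_iff₀ (Real.exp_pos _)]
    simp only [Function.comp, id]
    linarith
  · have h1 : ∀ᶠ δ in 𝓝[>] (0 : ℝ), Real.exp δ < r := by
      refine Tendsto.eventually_lt_const hr (tendsto_nhdsWithin_of_tendsto_nhds ?_)
      exact Continuous.tendsto' (by fun_prop) _ _ (by simp)
    obtain ⟨δ, h2, hδ⟩ := (h1.and self_mem_nhdsWithin).exists
    replace hδ : 0 < δ := hδ
    have t2 := (((avg hδ).div_const δ).const_add 1).const_mul (Real.exp δ)
    rw [zero_div, add_zero, mul_one] at t2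
    filter_upwards [t2.eventually_lt_const h2] with y hy
    refine lt_of_le_of_lt ?_ hy
    have a1 : ∫ _ in (0 : ℝ)..δ, ((Real.exp δ)⁻¹ * f y - 1) ≤
        ∫ s in (0 : ℝ)..δ, (f (y + s) - 1) :=
      intervalIntegral.integral_mono_on hδ.le intervalIntegrable_const (ii _ _) fun s hs =>
        sub_le_sub_right ((inv_mul_le_iff₀ (Real.exp_pos _)).2
          (mono (by linarith [hs.1]) (by linarith [hs.2]))) 1
    rw [intervalIntegral.integral_const, sub_zero, smul_eq_mul, mul_comm, ← le_div_iff₀ hδ] at a1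
    rw [← inv_mul_le_iff₀ (Real.exp_pos _)]
    linarith

theorem psi_div_tendsto : Tendsto (fun x : ℝ => Chebyshev.psi x / x) atTop (𝓝 1) := by
  refine (psi_exp_tendsto.comp Real.tendsto_log_atTop).congr' ?_
  filter_upwards [eventually_gt_atTop 0] with x hx
  simp only [Function.comp, Real.exp_neg, Real.exp_log hx, div_eq_mul_inv]

theorem theta_div_tendsto : Tendsto (fun x : ℝ => Chebyshev.theta x / x) atTop (𝓝 1) := by
  have h1 : Tendsto (fun x : ℝ => √x / x) atTop (𝓝 0) := by
    refine (tendsto_inv_atTop_zero.comp Real.tendsto_sqrt_atTop).congr fun x => ?_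
    simp only [Function.comp, Real.sqrt_div_self]
  have h2 := (Chebyshev.isBigO_psi_sub_theta_sqrt.mul
    (Asymptotics.isBigO_refl (fun x : ℝ => x⁻¹) atTop)).trans_tendsto h1
  have h3 := psi_div_tendsto.sub h2
  rw [sub_zero] at h3
  refine h3.congr fun x => ?_
  simp only [Pi.sub_apply]
  ring

end Vale.Agent.PNT
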