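import Mathlib

/-! A Tauberian theorem of Wiener–Ikehara type for bounded functions. -/

namespace Vale.Agent.PNT

open Filter Topology MeasureTheory Complex Set
open scoped FourierTransform Real ContDiff

lemma exists_kernel : ∃ w : ℝ → ℂ, Continuous w ∧ HasCompactSupport w ∧ Integrable (𝓕 w) ∧
    Continuous (𝓕 w) ∧ ∫ v, 𝓕 w v = 1 := by
  let b : ContDiffBump (0 : ℝ) := ⟨1, 2, one_pos, one_lt_two⟩
  have h1 : ContDiff ℝ ∞ fun x => ((b x : ℝ) : ℂ) := Complex.ofRealCLM.contDiff.comp b.contDiff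
  have h2 : HasCompactSupport fun x => ((b x : ℝ) : ℂ) :=
    b.hasCompactSupport.comp_left (g := fun x : ℝ => (x : ℂ)) rfl
  have h3 : Integrable (𝓕 fun x => ((b x : ℝ) : ℂ)) := (𝓕 (h2.toSchwartzMap h1)).integrable
  have h4 : Continuous (𝓕 fun x => ((b x : ℝ) : ℂ)) := (𝓕 (h2.toSchwartzMap h1)).continuous
  refine ⟨_, h1.continuous, h2, h3, h4, ?_⟩
  have h5 := congrFun (h1.continuous.fourierInv_fourier_eq
    (h1.continuous.integrable_of_hasCompactSupport h2) h3) 0
  rw [Real.fourierInv_eq, b.one_of_mem_closedBall (Metric.mem_closedBall_self zero_le_one)] at h5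
  simpa using h5

section
variable {g : ℝ → ℂ} {M : ℝ} {H : ℂ → ℂ}

lemma integrable_damp (hm : Measurable g) (hM : ∀ t, ‖g t‖ ≤ M) (h0 : ∀ t ≤ 0, g t = 0) {z : ℂ}
    (hz : 0 < z.re) : Integrable fun t : ℝ => g t * cexp (-z * t) := by
  have h1 : IntegrableOn (fun t : ℝ => g t * cexp (-z * t)) (Ioi 0) :=
    (integrableOn_exp_mul_complex_Ioi (a := -z) (by simpa) 0).bdd_mul hm.aestronglyMeasurable
      (Eventually.of_forall hM)
  refine (integrableOn_iff_integrable_of_support_subset fun t ht => ?_).1 h1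
  by_contra h
  exact ht (by simp [h0 t (not_lt.1 h)])

lemma damped_eq (hm : Measurable g) (hM : ∀ t, ‖g t‖ ≤ M) (h0 : ∀ t ≤ 0, g t = 0)
    (hL : ∀ z : ℂ, 0 < z.re → ∫ t : ℝ, g t * cexp (-z * t) = H z) {w : ℝ → ℂ} (hw : Integrable w)
    {l : ℝ} (hl : 0 < l) (y : ℝ) {ε : ℝ} (hε : 0 < ε) :
    ∫ v : ℝ, 𝓕 w v * (g (y + v / l) * cexp (-(ε : ℂ) * (y + v / l : ℝ))) =
      ∫ u : ℝ, cexp (((-2 * π * u * (-(l * y)) : ℝ) : ℂ) * I) *
        (w u * (l * H (ε + (2 * π * l * u : ℝ) * I))) := by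
  have h1 : Integrable fun v : ℝ => g (y + v / l) * cexp (-(ε : ℂ) * (y + v / l : ℝ)) :=
    ((integrable_damp hm hM h0 (z := ε) (by simpa)).comp_add_left y).comp_div hl.ne'
  have h2 : ∫ v : ℝ, 𝓕 w v * (g (y + v / l) * cexp (-(ε : ℂ) * (y + v / l : ℝ))) =
      ∫ u : ℝ, w u * 𝓕 (fun v : ℝ => g (y + v / l) * cexp (-(ε : ℂ) * (y + v / l : ℝ))) u := by
    simpa using! (VectorFourier.integral_fourierIntegral_smul_eq_flip (L := innerₗ ℝ)
      Real.continuous_fourierChar continuous_inner hw h1)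
  rw [h2]
  refine integral_congr_ae (Eventually.of_forall fun u => ?_)
  have h3 := hL (ε + (2 * π * l * u : ℝ) * I) (by simpa)
  have h4 := Measure.integral_comp_div
    (fun x : ℝ => g (y + x) * cexp (-(ε + (2 * π * l * u : ℝ) * I) * (y + x : ℝ))) l
  rw [integral_add_left_eq_self (fun t : ℝ => g t * cexp (-(ε + (2 * π * l * u : ℝ) * I) * t)) y,
    h3, abs_of_pos hl, Complex.real_smul] at h4
  simp only
  rw [Real.fourier_real_eq_integral_exp_smul, ← h4, mul_left_comm _ (w u),
    ← integral_const_mul (cexp _)]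
  refine congrArg (w u * ·) ?_
  refine integral_congr_ae (Eventually.of_forall fun v => ?_)
  simp only [smul_eq_mul]
  rw [mul_left_comm, mul_left_comm _ (g _), ← Complex.exp_add, ← Complex.exp_add]
  congr 2
  have : (l : ℂ) ≠ 0 := Complex.ofReal_ne_zero.2 hl.ne'
  push_cast
  field_simp
  ring

lemma kernel_tendsto (hm : Measurable g) (hM : ∀ t, ‖g t‖ ≤ M) (h0 : ∀ t ≤ 0, g t = 0)
    (hH : ContinuousOn H {z | 0 ≤ z.re})
    (hL : ∀ z : ℂ, 0 < z.re → ∫ t : ℝ, g t * cexp (-z * t) = H z) {w : ℝ → ℂ} (hw : Continuous w)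
    (hc : HasCompactSupport w) (hi : Integrable (𝓕 w)) {l : ℝ} (hl : 0 < l) :
    Tendsto (fun y => ∫ v : ℝ, 𝓕 w v * g (y + v / l)) atTop (𝓝 0) := by
  have key : ∀ y, ∫ v : ℝ, 𝓕 w v * g (y + v / l) =
      𝓕 (fun u : ℝ => w u * (l * H ((2 * π * l * u : ℝ) * I))) (-(l * y)) := fun y => by
    have c1 : ContinuousOn (fun ε : ℝ =>
        ∫ v : ℝ, 𝓕 w v * (g (y + v / l) * cexp (-(ε : ℂ) * (y + v / l : ℝ)))) (Ici 0) := by
      refine continuousOn_of_dominated (bound := fun v => ‖𝓕 w v‖ * M) (fun ε _ => ?_)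
        (fun ε hε => Eventually.of_forall fun v => ?_) (hi.norm.mul_const M)
        (Eventually.of_forall fun v => Continuous.continuousOn (by fun_prop))
      · exact hi.aestronglyMeasurable.mul (Measurable.aestronglyMeasurable (by fun_prop))
      · rw [norm_mul, norm_mul]
        refine mul_le_mul_of_nonneg_left ?_ (norm_nonneg _)
        rcases le_total (y + v / l) 0 with h | h
        · rw [h0 _ h, norm_zero, zero_mul]
          exact (norm_nonneg _).trans (hM 0)
        · refine (mul_le_of_le_one_right (norm_nonneg _) ?_).trans (hM _)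
          rw [Complex.norm_exp, Real.exp_le_one_iff, ← Complex.ofReal_neg, ← Complex.ofReal_mul,
            Complex.ofReal_re]
          exact mul_nonpos_of_nonpos_of_nonneg (neg_nonpos.2 hε) h
    have c2 : ContinuousOn (fun ε : ℝ => ∫ u : ℝ, cexp (((-2 * π * u * (-(l * y)) : ℝ) : ℂ) * I) *
        (w u * (l * H (ε + (2 * π * l * u : ℝ) * I)))) (Ici 0) := by
      refine continuousOn_integral_of_compact_support hc ?_ fun ε u _ hu => ?_
      · have : ContinuousOn (fun p : ℝ × ℝ => H (p.1 + (2 * π * l * p.2 : ℝ) * I))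
            (Ici 0 ×ˢ univ) :=
          hH.comp (Continuous.continuousOn (by fun_prop)) fun p hp => by simpa using hp.1
        exact (Continuous.continuousOn (by fun_prop)).mul
          ((Continuous.continuousOn (hw.comp continuous_snd)).mul (continuousOn_const.mul this))
      · rw [image_eq_zero_of_notMem_tsupport hu, zero_mul, mul_zero]
    have e := Set.EqOn.of_subset_closure (s := Ioi 0) (t := Ici 0) (fun ε hε => damped_eq hm hM h0 hL
      (hw.integrable_of_hasCompactSupport hc) hl y hε) c1 c2 Ioi_subset_Ici_self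
      (by rw [closure_Ioi]) (mem_Ici.2 le_rfl)
    rw [Real.fourier_real_eq_integral_exp_smul]
    simpa using e
  simp only [key]
  refine (Real.zero_at_infty_fourier _).comp (Tendsto.mono_right ?_ atBot_le_cocompact)
  exact tendsto_neg_atTop_atBot.comp (tendsto_id.const_mul_atTop hl)

theorem tauber (hm : Measurable g) (hM : ∀ t, ‖g t‖ ≤ M) (h0 : ∀ t ≤ 0, g t = 0)
    (hH : ContinuousOn H {z | 0 ≤ z.re})
    (hL : ∀ z : ℂ, 0 < z.re → ∫ t : ℝ, g t * cexp (-z * t) = H z) {δ : ℝ} (hδ : 0 < δ) :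
    Tendsto (fun y => ∫ s in (0 : ℝ)..δ, g (y + s)) atTop (𝓝 0) := by
  obtain ⟨w, hw, hc, hi, hcf, h1⟩ := exists_kernel
  have hM0 : 0 ≤ M := (norm_nonneg _).trans (hM 0)
  have ii : ∀ a b, IntervalIntegrable g volume a b := fun a b =>
    (intervalIntegrable_const (c := M)).mono_fun' hm.aestronglyMeasurable
      (Eventually.of_forall hM)
  obtain ⟨F, hF⟩ : ∃ F : ℝ → ℂ, ∀ y, F y = ∫ s in (0 : ℝ)..δ, g (y + s) := ⟨_, fun _ => rfl⟩
  have b0 : ∀ a b, ‖∫ s in a..b, g s‖ ≤ M * |b - a| := fun a b =>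
    intervalIntegral.norm_integral_le_of_norm_le_const fun s _ => hM s
  have e0 : ∀ y, F y = ∫ s in y..y + δ, g s := fun y => by
    rw [hF, intervalIntegral.integral_comp_add_left, add_zero]
  have b1 : ∀ y, ‖F y‖ ≤ M * δ := fun y => by
    have := b0 y (y + δ)
    rwa [add_sub_cancel_left, abs_of_pos hδ, ← e0] at this
  have b2 : ∀ y x, ‖F (y + x) - F y‖ ≤ 2 * M * |x| := fun y x => by
    rw [e0, e0, intervalIntegral.integral_interval_sub_interval_comm' (ii _ _) (ii _ _) (ii _ _)]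
    refine (norm_sub_le _ _).trans ?_
    have a1 := b0 (y + δ) (y + x + δ)
    have a2 := b0 y (y + x)
    rw [show y + x + δ - (y + δ) = x by ring] at a1
    rw [add_sub_cancel_left] at a2
    linarith
  have cF : Continuous F := by
    refine (LipschitzWith.of_dist_le_mul (K := ⟨2 * M, by positivity⟩) fun a b => ?_).continuous
    have := b2 b (a - b)
    rwa [add_sub_cancel, ← dist_eq_norm, ← Real.dist_eq] at this
  simp only [← hF]
  have dom : Tendsto (fun n : ℕ => ∫ v : ℝ, ‖𝓕 w v‖ * min (2 * (M * δ)) (2 * M * |v / (n + 1)|))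
      atTop (𝓝 0) := by
    have := tendsto_integral_of_dominated_convergence (μ := volume)
      (F := fun (n : ℕ) (v : ℝ) => ‖𝓕 w v‖ * min (2 * (M * δ)) (2 * M * |v / (n + 1)|))
      (f := fun _ => 0) (fun v => ‖𝓕 w v‖ * (2 * (M * δ)))
      (fun n => Continuous.aestronglyMeasurable (by fun_prop)) (hi.norm.mul_const _)
      (fun n => Eventually.of_forall fun v => by
        rw [Real.norm_of_nonneg (by positivity)]
        exact mul_le_mul_of_nonneg_left (min_le_left _ _) (norm_nonneg _))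
      (Eventually.of_forall fun v => by
        have t1 : Tendsto (fun n : ℕ => v / ((n : ℝ) + 1)) atTop (𝓝 0) := by
          simpa [div_eq_mul_inv] using tendsto_one_div_add_atTop_nhds_zero_nat.const_mul v
        have t2 := (tendsto_const_nhds (x := 2 * (M * δ))).min (t1.abs.const_mul (2 * M))
        rw [abs_zero, mul_zero, min_eq_right (by positivity)] at t2
        simpa using t2.const_mul ‖𝓕 w v‖)
    simpa using this
  rw [NormedAddGroup.tendsto_nhds_zero]
  intro ε hε
  obtain ⟨n, hn⟩ := (dom.eventually_lt_const (half_pos hε)).exists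
  obtain ⟨l, hl, el⟩ : ∃ l : ℝ, 0 < l ∧ (n : ℝ) + 1 = l := ⟨_, by positivity, rfl⟩
  rw [el] at hn
  have hη : 0 < ε / 2 / δ := by positivity
  obtain ⟨Y, hY⟩ := eventually_atTop.1
    (NormedAddGroup.tendsto_nhds_zero.1 (kernel_tendsto hm hM h0 hH hL hw hc hi hl) _ hη)
  filter_upwards [eventually_ge_atTop Y] with y hy
  have f1 : ∫ s in (0 : ℝ)..δ, ∫ v : ℝ, 𝓕 w v * g (y + s + v / l) =
      ∫ v : ℝ, 𝓕 w v * F (y + v / l) := by
    rw [intervalIntegral_integral_swap]
    · refine integral_congr_ae (Eventually.of_forall fun v => ?_)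
      simp only [hF, intervalIntegral.integral_const_mul, add_right_comm y]
    · have i1 : Integrable (fun _ : ℝ => M) (volume.restrict (uIoc 0 δ)) :=
        integrableOn_const (by simp [uIoc])
      refine (i1.mul_prod hi.norm).mono' (Measurable.aestronglyMeasurable ?_)
        (Eventually.of_forall fun p => ?_)
      · have := hcf.measurable
        exact (this.comp measurable_snd).mul (hm.comp (by fun_prop))
      · rw [Function.uncurry, norm_mul, mul_comm]
        exact mul_le_mul_of_nonneg_right (hM _) (norm_nonneg _)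
  have f2 : ‖∫ v : ℝ, 𝓕 w v * F (y + v / l)‖ ≤ ε / 2 := by
    rw [← f1]
    refine (intervalIntegral.norm_integral_le_of_norm_le_const (C := ε / 2 / δ)
      fun s hs => (hY _ ?_).le).trans_eq ?_
    · rw [uIoc_of_le hδ.le] at hs
      linarith [hs.1]
    · rw [sub_zero, abs_of_pos hδ, div_mul_cancel₀ _ hδ.ne']
  have i2 : Integrable fun v : ℝ => 𝓕 w v * F (y + v / l) :=
    hi.mul_bdd (Continuous.aestronglyMeasurable (by fun_prop)) (Eventually.of_forall fun v => b1 _)
  have f3 : F y = (∫ v : ℝ, 𝓕 w v * F (y + v / l)) -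
      ∫ v : ℝ, 𝓕 w v * (F (y + v / l) - F y) := by
    simp only [mul_sub]
    rw [integral_sub i2 (hi.mul_const _), integral_mul_const, h1]
    ring
  have f4 : ‖∫ v : ℝ, 𝓕 w v * (F (y + v / l) - F y)‖ < ε / 2 := by
    refine lt_of_le_of_lt (norm_integral_le_of_norm_le ?_ (Eventually.of_forall fun v => ?_)) hn
    · refine hi.norm.mul_bdd (c := 2 * (M * δ)) (Continuous.aestronglyMeasurable (by fun_prop))
        (Eventually.of_forall fun v => ?_)
      rw [Real.norm_of_nonneg (by positivity)]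
      exact min_le_left _ _
    · rw [norm_mul]
      refine mul_le_mul_of_nonneg_left (le_min ?_ (b2 _ _)) (norm_nonneg _)
      linarith [norm_sub_le (F (y + v / l)) (F y), b1 (y + v / l), b1 y]
  rw [f3]
  linarith [norm_sub_le (∫ v : ℝ, 𝓕 w v * F (y + v / l)) (∫ v : ℝ, 𝓕 w v * (F (y + v / l) - F y))]

end

end Vale.Agent.PNT
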